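import Mathlib

/-!
Algebraic core of the Cook-Mertz tree evaluation technique: averaging a product of
affine forms over the powers of a primitive root of unity.
-/

namespace Vale.Agent.Lib.P312

set_option linter.unusedSectionVars false

open Finset

variable {K : Type*} [Field K]

theorem sum_pow_pow_eq_zero {ω : K} {m : ℕ} (hω : IsPrimitiveRoot ω m) {e : ℕ}
    (he0 : e ≠ 0) (hem : e < m) : ∑ j ∈ range m, (ω ^ j) ^ e = 0 := by
  have h1 : ω ^ e ≠ 1 := hω.pow_ne_one_of_pos_of_lt he0 hem
  have h2 : ∀ j : ℕ, (ω ^ j) ^ e = (ω ^ e) ^ j := fun j => by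
    rw [← pow_mul, ← pow_mul, mul_comm]
  simp_rw [h2]
  rw [geom_sum_eq h1]
  have h3 : (ω ^ e) ^ m = 1 := by
    rw [← pow_mul, mul_comm, pow_mul, hω.pow_eq_one, one_pow]
  rw [h3, sub_self, zero_div]

theorem avg_prod {ι : Type*} [DecidableEq ι] (T : Finset ι) {ω : K} {m : ℕ}
    (hω : IsPrimitiveRoot ω m) (hT : T.card < m) (α β : ι → K) :
    ∑ j ∈ range m, ∏ i ∈ T, (ω ^ j * α i + β i) = (m : K) * ∏ i ∈ T, β i := by
  have h1 : ∀ j : ℕ, ∏ i ∈ T, (ω ^ j * α i + β i)
      = ∑ t ∈ T.powerset, (ω ^ j) ^ t.card * ((∏ i ∈ t, α i) * ∏ i ∈ T \ t, β i) := by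
    intro j
    rw [Finset.prod_add]
    refine Finset.sum_congr rfl fun t _ => ?_
    rw [Finset.prod_mul_distrib, Finset.prod_const, mul_assoc]
  simp_rw [h1]
  rw [Finset.sum_comm]
  have h2 : ∀ t ∈ T.powerset, ∑ j ∈ range m, (ω ^ j) ^ t.card * ((∏ i ∈ t, α i) * ∏ i ∈ T \ t, β i)
      = if t = ∅ then (m : K) * ∏ i ∈ T, β i else 0 := by
    intro t ht
    rw [← Finset.sum_mul]
    split_ifs with h
    · subst h
      simp
    · have hc : t.card ≠ 0 := by
        rwa [Ne, Finset.card_eq_zero]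
      have hlt : t.card < m :=
        lt_of_le_of_lt (Finset.card_le_card (Finset.mem_powerset.mp ht)) hT
      rw [sum_pow_pow_eq_zero hω hc hlt, zero_mul]
  rw [Finset.sum_congr rfl h2]
  simp

section Encoding

variable {σ V : Type*} [Fintype σ] [DecidableEq σ] [Fintype V] [DecidableEq V]

/-- One-hot encoding of a word `w : σ → V` as a 0/1 vector indexed by `σ × V`. -/
def enc (K : Type*) [Field K] (w : σ → V) : σ × V → K := fun p => if w p.1 = p.2 then 1 else 0

/-- The polynomial extension of a binary operation on words. -/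
noncomputable def ext (F : (σ → V) → (σ → V) → (σ → V)) (y z : σ × V → K) : σ × V → K :=
  fun p => ∑ a : σ → V, ∑ c : σ → V,
    if F a c p.1 = p.2 then (∏ i, y (i, a i)) * (∏ i, z (i, c i)) else 0

theorem prod_enc (w0 w : σ → V) : ∏ i, enc K w0 (i, w i) = if w0 = w then 1 else 0 := by
  simp only [enc]
  rw [Fintype.prod_boole]
  simp [funext_iff]

theorem enc_injective : Function.Injective (enc K : (σ → V) → σ × V → K) := by
  intro w1 w2 h
  funext i
  have h1 := congrFun h (i, w1 i)
  by_contra hne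
  have h2 : enc K w1 (i, w1 i) = 1 := by simp [enc]
  have h3 : enc K w2 (i, w1 i) = 0 := by
    simp only [enc]
    rw [if_neg (fun h' => hne h'.symm)]
  rw [h2, h3] at h1
  exact one_ne_zero h1

theorem ext_enc (F : (σ → V) → (σ → V) → (σ → V)) (a0 c0 : σ → V) :
    ext F (enc K a0) (enc K c0) = enc K (F a0 c0) := by
  funext p
  simp only [ext, prod_enc]
  rw [Finset.sum_eq_single a0, Finset.sum_eq_single c0]
  · simp [enc]
  · intro c _ hc
    simp [Ne.symm hc]
  · simp
  · intro a _ ha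
    simp [Ne.symm ha]
  · simp

theorem ext_avg (F : (σ → V) → (σ → V) → (σ → V)) {ω : K} {m : ℕ}
    (hω : IsPrimitiveRoot ω m) (hm : 2 * Fintype.card σ < m)
    (τy τz : σ × V → K) (a0 c0 : σ → V) :
    ∑ j ∈ range m, ext F (ω ^ j • τy + enc K a0) (ω ^ j • τz + enc K c0)
      = (m : K) • enc K (F a0 c0) := by
  funext p
  rw [← ext_enc]
  simp only [Finset.sum_apply, Pi.smul_apply, ext, Pi.add_apply, smul_eq_mul]
  rw [Finset.sum_comm, Finset.mul_sum]
  refine Finset.sum_congr rfl fun a _ => ?_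
  rw [Finset.sum_comm, Finset.mul_sum]
  refine Finset.sum_congr rfl fun c _ => ?_
  split_ifs with h
  · have key := avg_prod (K := K) (Finset.univ : Finset (σ ⊕ σ)) hω
      (by rw [Finset.card_univ, Fintype.card_sum]; omega)
      (Sum.elim (fun i => τy (i, a i)) (fun i => τz (i, c i)))
      (Sum.elim (fun i => enc K a0 (i, a i)) (fun i => enc K c0 (i, c i)))
    simp only [Fintype.prod_sum_type, Sum.elim_inl, Sum.elim_inr] at key
    exact key
  · simp

end Encoding

end Vale.Agent.Lib.P312
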