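import Mathlib

/-!
Definitions used in the statements about one-way sweeps of a finite-state transducer
and oblivious branching programs.
-/

namespace Vale.Agent.Lib.P312

/-- One left-to-right pass of the finite-state transducer (Mealy machine) `δ` over the
cells `l`, started in state `q`: in state `q` on a cell holding `a` the machine rewrites the
cell to `(δ q a).2`, enters state `(δ q a).1` and moves one cell to the right.
The result is the state after the last cell together with the rewritten cells. -/
def pass {Q Γ : Type} (δ : Q → Γ → Q × Γ) : Q → List Γ → Q × List Γ
  | q, [] => (q, [])
  | q, a :: l => ((pass δ (δ q a).1 l).1, (δ q a).2 :: (pass δ (δ q a).1 l).2)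

/-- The tape after `k` passes of `δ`, each of them started in state `q0` at the left end. -/
def passes {Q Γ : Type} (δ : Q → Γ → Q × Γ) (q0 : Q) : ℕ → List Γ → List Γ
  | 0, l => l
  | k + 1, l => (pass δ q0 (passes δ q0 k l)).2

/-- Run of an oblivious branching program with state set `S` on the input `x`:
the program is a list of steps; a step `(i, f)` reads input cell `i` and replaces the current
state `st` by `f (x i) st`. The width of the program is the number of elements of `S`,
its length is the number of steps. -/
def runBP {S Γ : Type} {s : ℕ} (prog : List (Fin s × (Γ → S → S))) (x : Fin s → Γ) (init : S) : S :=
  prog.foldl (fun st step => step.2 (x step.1) st) init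

end Vale.Agent.Lib.P312
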