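import Mathlib
import Vale.Agent.Lib.P312.Defs
import Vale.Agent.Lib.P312.Algebra

/-!
A Cook-Mertz style register program for two-dimensional grid recurrences, presented as an
oblivious branching program whose states are the contents of three groups of registers.
-/

namespace Vale.Agent.Lib.P312

set_option linter.unusedSectionVars false

open Finset

section RunBP

variable {S Γ : Type} {s : ℕ}

theorem runBP_nil (x : Fin s → Γ) (st : S) : runBP ([] : List (Fin s × (Γ → S → S))) x st = st := rfl

theorem runBP_cons (step : Fin s × (Γ → S → S)) (p : List (Fin s × (Γ → S → S)))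
    (x : Fin s → Γ) (st : S) : runBP (step :: p) x st = runBP p x (step.2 (x step.1) st) := rfl

theorem runBP_append (p q : List (Fin s × (Γ → S → S))) (x : Fin s → Γ) (st : S) :
    runBP (p ++ q) x st = runBP q x (runBP p x st) := by
  simp [runBP, List.foldl_append]

end RunBP

/-- The value at position `(i, k)` of the two-dimensional recurrence with left boundary `L`,
bottom boundary `Bo` and local rule `F` (applied to the left and to the lower neighbour). -/
def grid {W : Type} (F : W → W → W) (L Bo : ℕ → W) : ℕ → ℕ → W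
  | 0, k => L k
  | i + 1, 0 => Bo (i + 1)
  | i + 1, k + 1 => F (grid F L Bo i (k + 1)) (grid F L Bo (i + 1) k)

section Prog

variable {s : ℕ} {Γ : Type} {σ V K : Type} [Fintype σ] [DecidableEq σ] [Fintype V] [DecidableEq V]
  [Field K]

/-- Three groups of registers, each indexed by `σ × V`. -/
abbrev Reg (σ V K : Type) := Fin 3 → σ × V → K

def gY (X : Fin 3) : Fin 3 := X + 1

def gZ (X : Fin 3) : Fin 3 := X + 2

theorem gY_ne (X : Fin 3) : gY X ≠ X := by revert X; decide

theorem gZ_ne (X : Fin 3) : gZ X ≠ X := by revert X; decide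

theorem gY_ne_gZ (X : Fin 3) : gY X ≠ gZ X := by revert X; decide

theorem g_cover (X g : Fin 3) : g = X ∨ g = gY X ∨ g = gZ X := by revert X g; decide

def scaleFun (Y Z : Fin 3) (u : K) (st : Reg σ V K) : Reg σ V K :=
  fun g => if g = Y ∨ g = Z then u • st g else st g

noncomputable def addFun (F : (σ → V) → (σ → V) → (σ → V)) (X : Fin 3) (κ : K)
    (st : Reg σ V K) : Reg σ V K :=
  st + Pi.single X (κ • ext F (st (gY X)) (st (gZ X)))

def constStep (c0 : Fin s) (f : Reg σ V K → Reg σ V K) :
    Fin s × (Γ → Reg σ V K → Reg σ V K) := (c0, fun _ => f)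

noncomputable def block (F : (σ → V) → (σ → V) → (σ → V)) (ω : K) (m : ℕ) (c0 : Fin s)
    (left below : Fin 3 → K → List (Fin s × (Γ → Reg σ V K → Reg σ V K)))
    (X : Fin 3) (κ : K) (j : ℕ) : List (Fin s × (Γ → Reg σ V K → Reg σ V K)) :=
  constStep c0 (scaleFun (gY X) (gZ X) (ω ^ j)) ::
    (left (gY X) 1 ++ (below (gZ X) 1 ++
      (constStep c0 (addFun F X (κ * (m : K)⁻¹)) ::
        (left (gY X) (-1) ++ (below (gZ X) (-1) ++
          [constStep c0 (scaleFun (gY X) (gZ X) (ω ^ j)⁻¹)])))))

noncomputable def node (F : (σ → V) → (σ → V) → (σ → V)) (ω : K) (m : ℕ) (c0 : Fin s)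
    (left below : Fin 3 → K → List (Fin s × (Γ → Reg σ V K → Reg σ V K))) :
    Fin 3 → K → List (Fin s × (Γ → Reg σ V K → Reg σ V K)) :=
  fun X κ => (List.range m).flatMap (block F ω m c0 left below X κ)

/-- A family of programs is clean for the word-valued function `val` if the program with
parameters `X`, `κ` adds `κ` times the one-hot encoding of `val x` to register group `X`
and leaves the other two groups unchanged, whatever the initial register contents are. -/
def Clean (P : Fin 3 → K → List (Fin s × (Γ → Reg σ V K → Reg σ V K)))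
    (val : (Fin s → Γ) → (σ → V)) : Prop :=
  ∀ X κ x st, runBP (P X κ) x st = st + Pi.single X (κ • enc K (val x))

theorem block_run (F : (σ → V) → (σ → V) → (σ → V)) (ω : K) (m : ℕ) (c0 : Fin s)
    (left below : Fin 3 → K → List (Fin s × (Γ → Reg σ V K → Reg σ V K)))
    (a c : (Fin s → Γ) → (σ → V)) (hl : Clean left a) (hb : Clean below c)
    (hω : ω ≠ 0) (X : Fin 3) (κ : K) (j : ℕ) (x : Fin s → Γ) (st : Reg σ V K) :
    runBP (block F ω m c0 left below X κ j) x st
      = st + Pi.single X ((κ * (m : K)⁻¹) •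
          ext F (ω ^ j • st (gY X) + enc K (a x)) (ω ^ j • st (gZ X) + enc K (c x))) := by
  have hu : ω ^ j ≠ 0 := pow_ne_zero j hω
  have hYX := gY_ne X
  have hZX := gZ_ne X
  have hYZ := gY_ne_gZ X
  have hXY : X ≠ gY X := fun h => hYX h.symm
  have hXZ : X ≠ gZ X := fun h => hZX h.symm
  have hZY : gZ X ≠ gY X := fun h => hYZ h.symm
  simp only [block, runBP_cons, runBP_append, runBP_nil, constStep, hl _ _ _ _, hb _ _ _ _]
  have e1 : (scaleFun (gY X) (gZ X) (ω ^ j) st + Pi.single (gY X) ((1 : K) • enc K (a x)) +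
      Pi.single (gZ X) ((1 : K) • enc K (c x)) : Reg σ V K) (gY X)
        = ω ^ j • st (gY X) + enc K (a x) := by
    simp [scaleFun, hYZ]
  have e2 : (scaleFun (gY X) (gZ X) (ω ^ j) st + Pi.single (gY X) ((1 : K) • enc K (a x)) +
      Pi.single (gZ X) ((1 : K) • enc K (c x)) : Reg σ V K) (gZ X)
        = ω ^ j • st (gZ X) + enc K (c x) := by
    simp [scaleFun, hZY]
  simp only [addFun, e1, e2]
  funext g
  rcases g_cover X g with rfl | rfl | rfl
  · simp [scaleFun, hXY, hXZ]
  · simp [scaleFun, hYX, hYZ, smul_smul, inv_mul_cancel₀ hu]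
  · simp [scaleFun, hZX, hZY, smul_smul, inv_mul_cancel₀ hu]

theorem node_run (F : (σ → V) → (σ → V) → (σ → V)) (ω : K) (m : ℕ) (c0 : Fin s)
    (left below : Fin 3 → K → List (Fin s × (Γ → Reg σ V K → Reg σ V K)))
    (a c : (Fin s → Γ) → (σ → V)) (hl : Clean left a) (hb : Clean below c)
    (hω : ω ≠ 0) (X : Fin 3) (κ : K) (x : Fin s → Γ) (n : ℕ) (st : Reg σ V K) :
    runBP ((List.range n).flatMap (block F ω m c0 left below X κ)) x st
      = st + Pi.single X (∑ j ∈ range n, (κ * (m : K)⁻¹) •
          ext F (ω ^ j • st (gY X) + enc K (a x)) (ω ^ j • st (gZ X) + enc K (c x))) := by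
  induction n with
  | zero => simp [runBP_nil]
  | succ n ih =>
    rw [List.range_succ, List.flatMap_append, runBP_append, ih]
    simp only [List.flatMap_cons, List.flatMap_nil, List.append_nil]
    rw [block_run F ω m c0 left below a c hl hb hω]
    have hY : (st + Pi.single X (∑ j ∈ range n, (κ * (m : K)⁻¹) •
          ext F (ω ^ j • st (gY X) + enc K (a x)) (ω ^ j • st (gZ X) + enc K (c x)))
          : Reg σ V K) (gY X) = st (gY X) := by
      simp [gY_ne X]
    have hZ : (st + Pi.single X (∑ j ∈ range n, (κ * (m : K)⁻¹) •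
          ext F (ω ^ j • st (gY X) + enc K (a x)) (ω ^ j • st (gZ X) + enc K (c x)))
          : Reg σ V K) (gZ X) = st (gZ X) := by
      simp [gZ_ne X]
    rw [hY, hZ, Finset.sum_range_succ, Pi.single_add, add_assoc]

theorem node_clean (F : (σ → V) → (σ → V) → (σ → V)) {ω : K} {m : ℕ} (c0 : Fin s)
    (left below : Fin 3 → K → List (Fin s × (Γ → Reg σ V K → Reg σ V K)))
    (a c : (Fin s → Γ) → (σ → V)) (hl : Clean left a) (hb : Clean below c)
    (hω : IsPrimitiveRoot ω m) (hm : 2 * Fintype.card σ < m) (hmK : (m : K) ≠ 0) :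
    Clean (node F ω m c0 left below) (fun x => F (a x) (c x)) := by
  intro X κ x st
  have hω0 : ω ≠ 0 := hω.ne_zero (by omega)
  rw [node, node_run F ω m c0 left below a c hl hb hω0, ← Finset.smul_sum,
    ext_avg F hω hm, smul_smul, mul_assoc, inv_mul_cancel₀ hmK, mul_one]

/-- One-hot vector of a single slot. -/
def encSlot (K : Type) [Field K] (sl : σ) (v : V) : σ × V → K := Pi.single (sl, v) 1

theorem sum_encSlot (w : σ → V) : ∑ sl : σ, encSlot K sl (w sl) = enc K w := by
  funext p
  obtain ⟨i, v⟩ := p
  simp only [Finset.sum_apply, encSlot, enc, Pi.single_apply, Prod.mk.injEq]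
  by_cases h : w i = v
  · rw [if_pos h, Finset.sum_eq_single i]
    · simp [h]
    · intro b _ hb
      rw [if_neg]
      intro h'
      exact hb h'.1.symm
    · simp
  · rw [if_neg h]
    apply Finset.sum_eq_zero
    intro b _
    rw [if_neg]
    rintro ⟨rfl, h'⟩
    exact h h'.symm

/-- The program for a bottom boundary value: one step per slot, each reading one input cell. -/
noncomputable def leafProg (bt : σ → Fin s × (Γ → V)) :
    Fin 3 → K → List (Fin s × (Γ → Reg σ V K → Reg σ V K)) :=
  fun X κ => (Finset.univ.toList : List σ).map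
    (fun sl => ((bt sl).1, fun a st => st + Pi.single X (κ • encSlot K sl ((bt sl).2 a))))

theorem runBP_map_add {ι : Type} (l : List ι) (pos : ι → Fin s) (d : ι → Γ → Reg σ V K)
    (x : Fin s → Γ) (st : Reg σ V K) :
    runBP (l.map (fun sl => (pos sl, fun a st => st + d sl a))) x st
      = st + (l.map (fun sl => d sl (x (pos sl)))).sum := by
  induction l generalizing st with
  | nil => simp [runBP_nil]
  | cons b l ih =>
    rw [List.map_cons, runBP_cons, ih, List.map_cons, List.sum_cons, add_assoc]

theorem leaf_clean (bt : σ → Fin s × (Γ → V)) :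
    Clean (leafProg (K := K) bt) (fun x sl => (bt sl).2 (x (bt sl).1)) := by
  intro X κ x st
  rw [leafProg, runBP_map_add, Finset.sum_map_toList]
  congr 1
  rw [← sum_encSlot, Finset.smul_sum]
  funext g
  simp only [Finset.sum_apply, Pi.single_apply]
  split_ifs with h
  · rfl
  · simp

/-- The program for a constant value. -/
def constProg (c0 : Fin s) (w : σ → V) :
    Fin 3 → K → List (Fin s × (Γ → Reg σ V K → Reg σ V K)) :=
  fun X κ => [constStep c0 (fun st => st + Pi.single X (κ • enc K w))]

theorem const_clean (c0 : Fin s) (w : σ → V) :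
    Clean (constProg (Γ := Γ) (K := K) c0 w) (fun _ => w) := by
  intro X κ x st
  rfl

/-- The register program computing the grid recurrence. -/
noncomputable def cmProg (F : (σ → V) → (σ → V) → (σ → V)) (ω : K) (m : ℕ) (c0 : Fin s)
    (L : ℕ → σ → V) (bot : ℕ → σ → Fin s × (Γ → V)) :
    ℕ → ℕ → Fin 3 → K → List (Fin s × (Γ → Reg σ V K → Reg σ V K))
  | 0, k => constProg c0 (L k)
  | i + 1, 0 => leafProg (bot (i + 1))
  | i + 1, k + 1 => node F ω m c0 (cmProg F ω m c0 L bot i (k + 1)) (cmProg F ω m c0 L bot (i + 1) k)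

theorem cmProg_clean (F : (σ → V) → (σ → V) → (σ → V)) {ω : K} {m : ℕ} (c0 : Fin s)
    (L : ℕ → σ → V) (bot : ℕ → σ → Fin s × (Γ → V))
    (hω : IsPrimitiveRoot ω m) (hm : 2 * Fintype.card σ < m) (hmK : (m : K) ≠ 0) (i k : ℕ) :
    Clean (cmProg F ω m c0 L bot i k)
      (fun x => grid F L (fun I sl => (bot I sl).2 (x (bot I sl).1)) i k) := by
  induction i generalizing k with
  | zero =>
    rw [cmProg]
    simp only [grid]
    exact const_clean c0 (L k)
  | succ i ih =>
    induction k with
    | zero =>
      rw [cmProg]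
      simp only [grid]
      exact leaf_clean (bot (i + 1))
    | succ k ihk =>
      rw [cmProg]
      simp only [grid]
      exact node_clean F c0 _ _ _ _ (ih (k + 1)) ihk hω hm hmK

theorem block_length (F : (σ → V) → (σ → V) → (σ → V)) (ω : K) (m : ℕ) (c0 : Fin s)
    (left below : Fin 3 → K → List (Fin s × (Γ → Reg σ V K → Reg σ V K))) (B : ℕ)
    (hl : ∀ X κ, (left X κ).length ≤ B) (hb : ∀ X κ, (below X κ).length ≤ B)
    (X : Fin 3) (κ : K) (j : ℕ) :
    (block F ω m c0 left below X κ j).length ≤ 3 + 4 * B := by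
  simp only [block, List.length_cons, List.length_append, List.length_nil]
  have h1 := hl (gY X) 1
  have h2 := hb (gZ X) 1
  have h3 := hl (gY X) (-1)
  have h4 := hb (gZ X) (-1)
  omega

theorem node_length (F : (σ → V) → (σ → V) → (σ → V)) (ω : K) (m : ℕ) (c0 : Fin s)
    (left below : Fin 3 → K → List (Fin s × (Γ → Reg σ V K → Reg σ V K))) (B : ℕ)
    (hl : ∀ X κ, (left X κ).length ≤ B) (hb : ∀ X κ, (below X κ).length ≤ B)
    (X : Fin 3) (κ : K) :
    (node F ω m c0 left below X κ).length ≤ m * (3 + 4 * B) := by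
  rw [node, List.length_flatMap]
  have h : ∀ y ∈ (List.range m).map (fun j => (block F ω m c0 left below X κ j).length),
      y ≤ 3 + 4 * B := by
    intro y hy
    rw [List.mem_map] at hy
    obtain ⟨j, _, rfl⟩ := hy
    exact block_length F ω m c0 left below B hl hb X κ j
  have := List.sum_le_card_nsmul _ _ h
  simpa using this

theorem cmProg_length (F : (σ → V) → (σ → V) → (σ → V)) (ω : K) (m : ℕ) (c0 : Fin s)
    (L : ℕ → σ → V) (bot : ℕ → σ → Fin s × (Γ → V)) (hσ : 0 < Fintype.card σ) (hm : 0 < m)
    (i k : ℕ) (X : Fin 3) (κ : K) :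
    (cmProg F ω m c0 L bot i k X κ).length ≤ Fintype.card σ * (7 * m) ^ (i + k) := by
  have hpos : ∀ d : ℕ, 1 ≤ Fintype.card σ * (7 * m) ^ d := fun d =>
    Nat.mul_pos hσ (Nat.pow_pos (by omega))
  induction i generalizing k X κ with
  | zero =>
    rw [cmProg]
    simp only [constProg, List.length_cons, List.length_nil]
    exact hpos _
  | succ i ih =>
    induction k generalizing X κ with
    | zero =>
      rw [cmProg]
      simp only [leafProg, List.length_map, Finset.length_toList, Finset.card_univ]
      exact Nat.le_mul_of_pos_right _ (Nat.pow_pos (by omega))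
    | succ k ihk =>
      rw [cmProg]
      have h1 : ∀ X κ, (cmProg F ω m c0 L bot i (k + 1) X κ).length
          ≤ Fintype.card σ * (7 * m) ^ (i + k + 1) := fun X κ => by
        have := ih (k + 1) X κ
        rwa [← add_assoc] at this
      have h2 : ∀ X κ, (cmProg F ω m c0 L bot (i + 1) k X κ).length
          ≤ Fintype.card σ * (7 * m) ^ (i + k + 1) := fun X κ => by
        have := ihk X κ
        rwa [show i + 1 + k = i + k + 1 by omega] at this
      refine le_trans (node_length F ω m c0 _ _ _ h1 h2 X κ) ?_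
      have hB := hpos (i + k + 1)
      have e : i + 1 + (k + 1) = (i + k + 1) + 1 := by omega
      rw [e, pow_succ]
      calc m * (3 + 4 * (Fintype.card σ * (7 * m) ^ (i + k + 1)))
          ≤ m * (7 * (Fintype.card σ * (7 * m) ^ (i + k + 1))) := by
            apply Nat.mul_le_mul_left
            omega
        _ = Fintype.card σ * ((7 * m) ^ (i + k + 1) * (7 * m)) := by ring

end Prog

end Vale.Agent.Lib.P312
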