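import Mathlib
import Vale.Agent.Lib.P312.CookMertz

/-!
Tiling of a two-dimensional grid recurrence by square blocks of side `b`: the values on the
top row and the right column of the blocks satisfy a grid recurrence themselves.
-/

namespace Vale.Agent.Lib.P312

section Tiling

variable {V : Type}

theorem grid_zero_left (F : V → V → V) (L Bo : ℕ → V) (k : ℕ) : grid F L Bo 0 k = L k := by
  rw [grid]

theorem grid_succ_zero (F : V → V → V) (L Bo : ℕ → V) (i : ℕ) :
    grid F L Bo (i + 1) 0 = Bo (i + 1) := by
  rw [grid]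

theorem grid_succ_succ (F : V → V → V) (L Bo : ℕ → V) (i k : ℕ) :
    grid F L Bo (i + 1) (k + 1) = F (grid F L Bo i (k + 1)) (grid F L Bo (i + 1) k) := by
  rw [grid]

theorem grid_shift (F : V → V → V) (L Bo : ℕ → V) (a c : ℕ) (i k : ℕ) :
    grid F (fun k => grid F L Bo a (c + k)) (fun i => grid F L Bo (a + i) c) i k
      = grid F L Bo (a + i) (c + k) := by
  induction i generalizing k with
  | zero => rw [grid_zero_left]; rfl
  | succ i ih =>
    induction k with
    | zero => rw [grid_succ_zero]; rfl
    | succ k ihk =>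
      rw [grid_succ_succ, ih, ihk]
      have e1 : a + (i + 1) = (a + i) + 1 := by omega
      have e2 : c + (k + 1) = (c + k) + 1 := by omega
      rw [e1, e2, grid_succ_succ]

theorem grid_congr (F : V → V → V) (L1 L2 Bo1 Bo2 : ℕ → V) (I K : ℕ)
    (hL : ∀ k, 1 ≤ k → k ≤ K → L1 k = L2 k) (hB : ∀ i, 1 ≤ i → i ≤ I → Bo1 i = Bo2 i)
    (i k : ℕ) (hi : i ≤ I) (hk : k ≤ K) (h1 : 1 ≤ i ∨ 1 ≤ k) :
    grid F L1 Bo1 i k = grid F L2 Bo2 i k := by
  induction i generalizing k with
  | zero =>
    rw [grid_zero_left, grid_zero_left]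
    exact hL k (by omega) hk
  | succ i ih =>
    induction k with
    | zero =>
      rw [grid_succ_zero, grid_succ_zero]
      exact hB (i + 1) (by omega) hi
    | succ k ihk =>
      rw [grid_succ_succ, grid_succ_succ, ih (k + 1) (by omega) hk (by omega),
        ihk (by omega) (by omega)]

/-- The block rule: from the right column of the block to the left and the top row of the
block below, compute the top row and the right column of a block of side `b`. -/
def tileF (b : ℕ) (v0 : V) (F : V → V → V) (wl wb : Fin b ⊕ Fin b → V) : Fin b ⊕ Fin b → V :=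
  Sum.elim
    (fun j => grid F (fun k => if h : k - 1 < b then wl (Sum.inr ⟨k - 1, h⟩) else v0)
      (fun i => if h : i - 1 < b then wb (Sum.inl ⟨i - 1, h⟩) else v0) (j + 1) b)
    (fun j => grid F (fun k => if h : k - 1 < b then wl (Sum.inr ⟨k - 1, h⟩) else v0)
      (fun i => if h : i - 1 < b then wb (Sum.inl ⟨i - 1, h⟩) else v0) b (j + 1))

/-- Left boundary of the block recurrence. -/
def tileL (b : ℕ) (v0 : V) (L : ℕ → V) : ℕ → Fin b ⊕ Fin b → V :=
  fun K => Sum.elim (fun _ => v0) (fun j => L ((K - 1) * b + j + 1))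

/-- Bottom boundary of the block recurrence. -/
def tileB (b : ℕ) (v0 : V) (Bo : ℕ → V) : ℕ → Fin b ⊕ Fin b → V :=
  fun I => Sum.elim (fun j => Bo ((I - 1) * b + j + 1)) (fun _ => v0)

theorem tile_spec (b : ℕ) (v0 : V) (F : V → V → V) (L Bo : ℕ → V) (I K : ℕ) :
    (1 ≤ K → ∀ j : Fin b, grid (tileF b v0 F) (tileL b v0 L) (tileB b v0 Bo) I K (Sum.inr j)
        = grid F L Bo (I * b) ((K - 1) * b + j + 1)) ∧
    (1 ≤ I → ∀ j : Fin b, grid (tileF b v0 F) (tileL b v0 L) (tileB b v0 Bo) I K (Sum.inl j)
        = grid F L Bo ((I - 1) * b + j + 1) (K * b)) := by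
  induction I generalizing K with
  | zero =>
    refine ⟨fun _ j => ?_, fun h => absurd h (by omega)⟩
    rw [grid_zero_left, Nat.zero_mul, grid_zero_left]
    rfl
  | succ I ih =>
    induction K with
    | zero =>
      refine ⟨fun h => absurd h (by omega), fun _ j => ?_⟩
      rw [grid_succ_zero, Nat.zero_mul]
      simp only [tileB, Sum.elim_inl, Nat.add_sub_cancel]
      rw [grid_succ_zero]
    | succ K ihK =>
      have hl := (ih (K + 1)).1 (by omega)
      have hb := ihK.2 (by omega)
      simp only [Nat.add_sub_cancel] at hl hb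
      have hL : ∀ k, 1 ≤ k → k ≤ b →
          (fun k => if h : k - 1 < b then
            grid (tileF b v0 F) (tileL b v0 L) (tileB b v0 Bo) I (K + 1) (Sum.inr ⟨k - 1, h⟩)
            else v0) k
          = (fun k => grid F L Bo (I * b) (K * b + k)) k := by
        intro k hk1 hk2
        have h : k - 1 < b := by omega
        simp only [dif_pos h]
        rw [hl ⟨k - 1, h⟩]
        congr 1
        simp only
        omega
      have hB : ∀ i, 1 ≤ i → i ≤ b →
          (fun i => if h : i - 1 < b then
            grid (tileF b v0 F) (tileL b v0 L) (tileB b v0 Bo) (I + 1) K (Sum.inl ⟨i - 1, h⟩)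
            else v0) i
          = (fun i => grid F L Bo (I * b + i) (K * b)) i := by
        intro i hi1 hi2
        have h : i - 1 < b := by omega
        simp only [dif_pos h]
        rw [hb ⟨i - 1, h⟩]
        congr 1
        simp only
        omega
      refine ⟨fun _ j => ?_, fun _ j => ?_⟩
      · rw [grid_succ_succ]
        simp only [tileF, Sum.elim_inr]
        rw [grid_congr F _ _ _ _ b b hL hB b (j + 1) le_rfl (by omega) (by omega),
          grid_shift]
        have e1 : I * b + b = (I + 1) * b := by ring
        have e2 : K * b + ((j : ℕ) + 1) = (K + 1 - 1) * b + j + 1 := by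
          rw [Nat.add_sub_cancel]; ring
        rw [e1, e2]
      · rw [grid_succ_succ]
        simp only [tileF, Sum.elim_inl]
        rw [grid_congr F _ _ _ _ b b hL hB (j + 1) b (by omega) le_rfl (by omega),
          grid_shift]
        have e1 : K * b + b = (K + 1) * b := by ring
        have e2 : I * b + ((j : ℕ) + 1) = (I + 1 - 1) * b + j + 1 := by
          rw [Nat.add_sub_cancel]; ring
        rw [e1, e2]

end Tiling

end Vale.Agent.Lib.P312
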