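import Mathlib
import Vale.Agent.Lib.P312.Tiling

/-!
Iterated one-way passes of a finite-state transducer as a grid recurrence, and the resulting
small-width oblivious branching programs.
-/

namespace Vale.Agent.Lib.P312

section Sweep

variable {Q Γ : Type}

theorem pass_ofFn (δ : Q → Γ → Q × Γ) (n : ℕ) (q : Q) (c : ℕ → Γ) (g : ℕ → Q × Γ)
    (h0 : (g 0).1 = q) (hs : ∀ i, g (i + 1) = δ (g i).1 (c i)) :
    pass δ q (List.ofFn (fun i : Fin n => c i))
      = ((g n).1, List.ofFn (fun i : Fin n => (g (i + 1)).2)) := by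
  induction n generalizing q c g with
  | zero => simp [pass, h0]
  | succ n ih =>
    rw [List.ofFn_succ, pass]
    have h1 : δ q (c ((0 : Fin (n + 1)) : ℕ)) = g 1 := by
      rw [← h0]
      exact (hs 0).symm
    rw [h1]
    have h2 := ih (g 1).1 (fun i => c (i + 1)) (fun i => g (i + 1)) rfl (fun i => hs (i + 1))
    simp only [Fin.val_succ]
    rw [h2]
    rw [List.ofFn_succ (f := fun i : Fin (n + 1) => (g (i + 1)).2)]
    simp

/-- The local rule of the grid recurrence describing passes of `δ`: the new pair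
(state after the cell, new content of the cell) from the pair of the cell to the left in the
same pass and the pair of the same cell in the previous pass. -/
def cellF (δ : Q → Γ → Q × Γ) : Q × Γ → Q × Γ → Q × Γ := fun l d => δ l.1 d.2

/-- The input cell read for the bottom boundary value at position `i` (positions start at 1). -/
def cellPos (s : ℕ) (c0 : Fin s) (i : ℕ) : Fin s := if h : i - 1 < s then ⟨i - 1, h⟩ else c0

theorem passes_eq_grid (δ : Q → Γ → Q × Γ) (q0 : Q) (γ0 : Γ) (s : ℕ) (c0 : Fin s)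
    (x : Fin s → Γ) (k : ℕ) :
    passes δ q0 k (List.ofFn x) = List.ofFn (fun i : Fin s =>
      (grid (cellF δ) (fun _ => (q0, γ0)) (fun i => (q0, x (cellPos s c0 i))) (i + 1) k).2) := by
  induction k with
  | zero =>
    rw [passes]
    congr 1
    funext i
    rw [grid_succ_zero]
    simp [cellPos]
  | succ k ih =>
    rw [passes, ih]
    rw [pass_ofFn δ s q0
      (fun i => (grid (cellF δ) (fun _ => (q0, γ0)) (fun i => (q0, x (cellPos s c0 i))) (i + 1) k).2)
      (fun i => grid (cellF δ) (fun _ => (q0, γ0)) (fun i => (q0, x (cellPos s c0 i))) i (k + 1))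
      (by rw [grid_zero_left]) (fun i => by rw [grid_succ_succ]; rfl)]

theorem final_state_eq_grid (δ : Q → Γ → Q × Γ) (q0 : Q) (γ0 : Γ) (s : ℕ) (c0 : Fin s)
    (x : Fin s → Γ) (k : ℕ) :
    (pass δ q0 (passes δ q0 k (List.ofFn x))).1
      = (grid (cellF δ) (fun _ => (q0, γ0)) (fun i => (q0, x (cellPos s c0 i))) s (k + 1)).1 := by
  rw [passes_eq_grid δ q0 γ0 s c0 x k]
  rw [pass_ofFn δ s q0
      (fun i => (grid (cellF δ) (fun _ => (q0, γ0)) (fun i => (q0, x (cellPos s c0 i))) (i + 1) k).2)
      (fun i => grid (cellF δ) (fun _ => (q0, γ0)) (fun i => (q0, x (cellPos s c0 i))) i (k + 1))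
      (by rw [grid_zero_left]) (fun i => by rw [grid_succ_succ]; rfl)]

end Sweep

section Main

open Classical in
/-- Small-width oblivious branching programs for `n2 * b` one-way passes over `n1 * b` cells. -/
theorem sweep_bp2 (Q Γ : Type) [Fintype Q] [Fintype Γ] (δ : Q → Γ → Q × Γ) (q0 : Q)
    (n1 n2 b : ℕ) (hn1 : 0 < n1) (hn2 : 0 < n2) (hb : 0 < b) :
    ∃ (S : Type) (_ : Fintype S) (init : S) (prog : List (Fin (n1 * b) × (Γ → S → S)))
      (out : S → Q),
      Fintype.card S ≤ (8 * b + 2) ^ (6 * b * (Fintype.card Q * Fintype.card Γ)) ∧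
      prog.length ≤ 2 * b * (56 * b + 14) ^ (n1 + n2) ∧
      ∀ x : Fin (n1 * b) → Γ,
        out (runBP prog x init) = (pass δ q0 (passes δ q0 (n2 * b - 1) (List.ofFn x))).1 := by
  have hs : 0 < n1 * b := Nat.mul_pos hn1 hb
  rcases isEmpty_or_nonempty Γ with hΓ | ⟨⟨γ0⟩⟩
  · refine ⟨PUnit, inferInstance, PUnit.unit, [], fun _ => q0, ?_, ?_, ?_⟩
    · rw [Fintype.card_punit]
      exact Nat.one_le_pow _ _ (by omega)
    · simp
    · intro x
      exact (hΓ.false (x ⟨0, hs⟩)).elim
  · obtain ⟨p, hp, hlt, hle⟩ := Nat.exists_prime_lt_and_le_two_mul (4 * b + 1) (by omega)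
    have : Fact p.Prime := ⟨hp⟩
    obtain ⟨g, hg⟩ := IsCyclic.exists_generator (α := (ZMod p)ˣ)
    have hord : orderOf g = p - 1 := by
      rw [orderOf_eq_card_of_forall_mem_zpowers hg, Nat.card_eq_fintype_card, ZMod.card_units]
    have hω : IsPrimitiveRoot (g : ZMod p) (p - 1) := by
      rw [IsPrimitiveRoot.coe_units_iff, ← hord]
      exact IsPrimitiveRoot.orderOf g
    have hmK : ((p - 1 : ℕ) : ZMod p) ≠ 0 := by
      rw [Ne, ZMod.natCast_eq_zero_iff]
      intro hdvd
      have := Nat.le_of_dvd (by omega) hdvd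
      omega
    have hcard : Fintype.card (Fin b ⊕ Fin b) = 2 * b := by
      rw [Fintype.card_sum, Fintype.card_fin]; ring
    have hm : 2 * Fintype.card (Fin b ⊕ Fin b) < p - 1 := by
      rw [hcard]; omega
    let c0 : Fin (n1 * b) := ⟨0, hs⟩
    let v0 : Q × Γ := (q0, γ0)
    let bot : ℕ → Fin b ⊕ Fin b → Fin (n1 * b) × (Γ → Q × Γ) := fun I =>
      Sum.elim (fun j => (cellPos (n1 * b) c0 ((I - 1) * b + j + 1), fun a => (q0, a)))
        (fun _ => (c0, fun _ => v0))
    let prog := cmProg (tileF b v0 (cellF δ)) (g : ZMod p) (p - 1) c0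
      (tileL b v0 (fun _ => (q0, γ0))) bot n1 n2 0 1
    have hbl : b - 1 < b := by omega
    refine ⟨Reg (Fin b ⊕ Fin b) (Q × Γ) (ZMod p), inferInstance, 0, prog,
      fun st => if h : ∃ w : Fin b ⊕ Fin b → Q × Γ, enc (ZMod p) w = st 0
        then (Classical.choose h (Sum.inr ⟨b - 1, hbl⟩)).1 else q0, ?_, ?_, ?_⟩
    · have e : Fintype.card (Reg (Fin b ⊕ Fin b) (Q × Γ) (ZMod p))
          = p ^ (6 * b * (Fintype.card Q * Fintype.card Γ)) := by
        simp only [Reg, Fintype.card_fun, Fintype.card_prod, Fintype.card_sum, Fintype.card_fin,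
          ZMod.card]
        rw [← pow_mul]
        congr 1
        ring
      rw [e]
      exact Nat.pow_le_pow_left (by omega) _
    · have hlen := cmProg_length (tileF b v0 (cellF δ)) (g : ZMod p) (p - 1) c0
        (tileL b v0 (fun _ => (q0, γ0))) bot (by rw [hcard]; omega) (by omega) n1 n2 0 1
      rw [hcard] at hlen
      refine le_trans hlen ?_
      apply Nat.mul_le_mul_left
      apply Nat.pow_le_pow_left
      omega
    · intro x
      have hclean := cmProg_clean (tileF b v0 (cellF δ)) c0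
        (tileL b v0 (fun _ => (q0, γ0))) bot hω hm hmK n1 n2 0 1 x 0
      have hbot : (fun I sl => (bot I sl).2 (x (bot I sl).1))
          = tileB b v0 (fun i => (q0, x (cellPos (n1 * b) c0 i))) := by
        funext I sl
        cases sl <;> rfl
      beta_reduce at hclean
      rw [hbot] at hclean
      have hst : (runBP prog x (0 : Reg (Fin b ⊕ Fin b) (Q × Γ) (ZMod p))) 0
          = enc (ZMod p) (grid (tileF b v0 (cellF δ)) (tileL b v0 (fun _ => (q0, γ0)))
              (tileB b v0 (fun i => (q0, x (cellPos (n1 * b) c0 i)))) n1 n2) := by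
        rw [hclean]
        simp
      have hex : ∃ w : Fin b ⊕ Fin b → Q × Γ, enc (ZMod p) w
          = (runBP prog x (0 : Reg (Fin b ⊕ Fin b) (Q × Γ) (ZMod p))) 0 := ⟨_, hst.symm⟩
      have hch := enc_injective ((Classical.choose_spec hex).trans hst)
      simp only [dif_pos hex]
      rw [hch]
      have hts := (tile_spec b v0 (cellF δ) (fun _ => (q0, γ0))
        (fun i => (q0, x (cellPos (n1 * b) c0 i))) n1 n2).1 hn2 ⟨b - 1, hbl⟩
      rw [hts]
      have e1 : (n2 - 1) * b + (b - 1) + 1 = n2 * b - 1 + 1 := by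
        have h1 : (n2 - 1) * b + b = n2 * b := by
          rw [← Nat.succ_mul, Nat.succ_eq_add_one, Nat.sub_add_cancel hn2]
        have h2 : 0 < n2 * b := Nat.mul_pos hn2 hb
        omega
      simp only
      rw [e1, final_state_eq_grid δ q0 γ0 (n1 * b) c0 x (n2 * b - 1)]

/-- Small-width oblivious branching programs for `n * b` one-way passes over `n * b` cells. -/
theorem sweep_bp (Q Γ : Type) [Fintype Q] [Fintype Γ] (δ : Q → Γ → Q × Γ) (q0 : Q)
    (n b : ℕ) (hn : 0 < n) (hb : 0 < b) :
    ∃ (S : Type) (_ : Fintype S) (init : S) (prog : List (Fin (n * b) × (Γ → S → S)))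
      (out : S → Q),
      Fintype.card S ≤ (8 * b + 2) ^ (6 * b * (Fintype.card Q * Fintype.card Γ)) ∧
      prog.length ≤ 2 * b * (56 * b + 14) ^ (2 * n) ∧
      ∀ x : Fin (n * b) → Γ,
        out (runBP prog x init) = (pass δ q0 (passes δ q0 (n * b - 1) (List.ofFn x))).1 := by
  have h := sweep_bp2 Q Γ δ q0 n n b hn hn hb
  have e : n + n = 2 * n := by ring
  rw [e] at h
  exact h

end Main

end Vale.Agent.Lib.P312
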