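import Mathlib

/-!
A minimal model of deterministic one-tape Turing machines and the one-tape machine that
performs repeated left-to-right rewriting sweeps of a finite-state transducer.
-/

namespace Vale.Agent.Lib.P312

/-- A deterministic one-tape Turing machine with state set `Λ` and tape alphabet `A`.
If `tr q a = (q', a', d)` then in state `q` on a cell holding `a` the machine writes `a'`,
enters state `q'` and moves its head one cell to the right if `d` is true and one cell to the
left if `d` is false. -/
structure OneTape (Λ A : Type) where
  tr : Λ → A → Λ × A × Bool

/-- A configuration: current state, head position and contents of the two-way infinite tape. -/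
structure Cfg (Λ A : Type) where
  state : Λ
  head : ℤ
  tape : ℤ → A

/-- One computation step. -/
def OneTape.next {Λ A : Type} (M : OneTape Λ A) (c : Cfg Λ A) : Cfg Λ A :=
  ⟨(M.tr c.state (c.tape c.head)).1,
    if (M.tr c.state (c.tape c.head)).2.2 then c.head + 1 else c.head - 1,
    Function.update c.tape c.head (M.tr c.state (c.tape c.head)).2.1⟩

/-- The tape holding the word `l` on cells `0, 1, ..., l.length - 1` and blanks (`none`)
everywhere else. -/
def tapeOf {Γ : Type} (l : List Γ) : ℤ → Option Γ :=
  fun z => if 0 ≤ z then l[z.toNat]? else none

/-- The initial configuration on input `l`: state `q`, head on cell `0`, input on the tape. -/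
def initCfg {Λ Γ : Type} (q : Λ) (l : List Γ) : Cfg Λ (Option Γ) := ⟨q, 0, tapeOf l⟩

/-- The sweeping one-tape machine of a finite-state transducer `δ` with start state `q0`.
States: `some q` (sweeping right in transducer state `q`) and `none` (returning).
Sweeping right over a non-blank cell it applies `δ` and moves right; on the blank after the
input it turns and moves left over the non-blank cells without changing them; on the blank
before the input it turns again and starts the next sweep in state `some q0`. -/
def sweeper {Q Γ : Type} (δ : Q → Γ → Q × Γ) (q0 : Q) : OneTape (Option Q) (Option Γ) where
  tr
    | some q, some a => (some (δ q a).1, some (δ q a).2, true)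
    | some _, none => (none, none, false)
    | none, some a => (none, some a, false)
    | none, none => (some q0, none, true)

end Vale.Agent.Lib.P312
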