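import Mathlib
import Vale.Agent.Lib.P312.Defs
import Vale.Agent.Lib.P312.TMDefs
import Vale.Agent.Lib.P312.Sweep

/-!
The sweeping machine of a transducer realizes the iterated passes.
-/

namespace Vale.Agent.Lib.P312

section TMSim

variable {Q Γ : Type}

theorem pass_length (δ : Q → Γ → Q × Γ) (l : List Γ) (q : Q) : (pass δ q l).2.length = l.length := by
  induction l generalizing q with
  | nil => simp [pass]
  | cons a l ih => simp [pass, ih]

theorem passes_length (δ : Q → Γ → Q × Γ) (q0 : Q) (k : ℕ) (l : List Γ) :
    (passes δ q0 k l).length = l.length := by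
  induction k with
  | zero => simp [passes]
  | succ k ih => rw [passes, pass_length, ih]

theorem tapeOf_at (l : List Γ) (i : ℕ) : tapeOf l (i : ℤ) = l[i]? := by
  simp [tapeOf]

theorem tapeOf_update (pre suf : List Γ) (a a' : Γ) :
    Function.update (tapeOf (pre ++ a :: suf)) (pre.length : ℤ) (some a')
      = tapeOf (pre ++ a' :: suf) := by
  funext z
  by_cases hz : z = (pre.length : ℤ)
  · subst hz
    rw [Function.update_self, tapeOf_at]
    simp
  · rw [Function.update_of_ne hz]
    simp only [tapeOf]
    split_ifs with h0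
    · have hne : z.toNat ≠ pre.length := by
        intro h
        apply hz
        omega
      rw [List.getElem?_append, List.getElem?_append]
      split_ifs with h1
      · rfl
      · have h2 : z.toNat - pre.length ≠ 0 := by omega
        obtain ⟨j, hj⟩ := Nat.exists_eq_succ_of_ne_zero h2
        rw [hj]
        simp
    · rfl

theorem sweep_forward (δ : Q → Γ → Q × Γ) (q0 : Q) (suf : List Γ) :
    ∀ (pre : List Γ) (q : Q),
      ((sweeper δ q0).next)^[suf.length] ⟨some q, (pre.length : ℤ), tapeOf (pre ++ suf)⟩
        = ⟨some (pass δ q suf).1, ((pre.length + suf.length : ℕ) : ℤ),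
            tapeOf (pre ++ (pass δ q suf).2)⟩ := by
  induction suf with
  | nil =>
    intro pre q
    simp [pass]
  | cons a suf ih =>
    intro pre q
    rw [List.length_cons, Function.iterate_succ_apply]
    have hstep : (sweeper δ q0).next ⟨some q, (pre.length : ℤ), tapeOf (pre ++ a :: suf)⟩
        = ⟨some (δ q a).1, ((pre ++ [(δ q a).2]).length : ℤ),
            tapeOf ((pre ++ [(δ q a).2]) ++ suf)⟩ := by
      have hread : tapeOf (pre ++ a :: suf) (pre.length : ℤ) = some a := by
        rw [tapeOf_at]; simp
      simp only [OneTape.next, hread, sweeper, if_true]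
      rw [tapeOf_update]
      simp
    rw [hstep, ih (pre ++ [(δ q a).2]) (δ q a).1]
    simp only [pass, List.length_append, List.length_cons, List.length_nil, List.append_assoc,
      List.cons_append, List.nil_append]
    congr 1
    push_cast
    ring

theorem sweep_return (δ : Q → Γ → Q × Γ) (q0 : Q) (l : List Γ) :
    ∀ j : ℕ, j ≤ l.length →
      ((sweeper δ q0).next)^[j] ⟨none, (j : ℤ) - 1, tapeOf l⟩ = ⟨none, -1, tapeOf l⟩ := by
  intro j
  induction j with
  | zero => intro _; simp
  | succ j ih =>
    intro hj
    rw [Function.iterate_succ_apply]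
    have hlt : j < l.length := by omega
    have hhead : ((j + 1 : ℕ) : ℤ) - 1 = (j : ℤ) := by push_cast; ring
    have hread : tapeOf l (j : ℤ) = some l[j] := by
      rw [tapeOf_at]; simp [hlt]
    have hstep : (sweeper δ q0).next ⟨none, ((j + 1 : ℕ) : ℤ) - 1, tapeOf l⟩
        = ⟨none, (j : ℤ) - 1, tapeOf l⟩ := by
      rw [hhead]
      simp only [OneTape.next, hread, sweeper]
      congr 1
      rw [← hread, Function.update_eq_self]
    rw [hstep]
    exact ih (by omega)

theorem sweep_turn_right (δ : Q → Γ → Q × Γ) (q0 : Q) (l : List Γ) (q : Q) :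
    (sweeper δ q0).next ⟨some q, (l.length : ℤ), tapeOf l⟩
      = ⟨none, (l.length : ℤ) - 1, tapeOf l⟩ := by
  have hread : tapeOf l (l.length : ℤ) = none := by
    rw [tapeOf_at]; simp
  simp only [OneTape.next, hread, sweeper]
  congr 1
  rw [← hread, Function.update_eq_self]

theorem sweep_turn_left (δ : Q → Γ → Q × Γ) (q0 : Q) (l : List Γ) :
    (sweeper δ q0).next ⟨none, -1, tapeOf l⟩ = ⟨some q0, 0, tapeOf l⟩ := by
  have hread : tapeOf l (-1 : ℤ) = none := by
    simp [tapeOf]
  simp only [OneTape.next, hread, sweeper]
  congr 1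
  rw [← hread, Function.update_eq_self]

theorem sweep_cycle (δ : Q → Γ → Q × Γ) (q0 : Q) (l : List Γ) :
    ((sweeper δ q0).next)^[2 * l.length + 2] ⟨some q0, 0, tapeOf l⟩
      = ⟨some q0, 0, tapeOf (pass δ q0 l).2⟩ := by
  have e : 2 * l.length + 2 = 1 + ((pass δ q0 l).2.length + (1 + l.length)) := by
    rw [pass_length]; omega
  rw [e, Function.iterate_add_apply, Function.iterate_add_apply, Function.iterate_add_apply]
  have h1 := sweep_forward δ q0 l [] q0
  simp only [List.length_nil, List.nil_append, Nat.zero_add, Nat.cast_zero] at h1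
  rw [h1, Function.iterate_one]
  have h2 := sweep_turn_right δ q0 (pass δ q0 l).2 (pass δ q0 l).1
  rw [pass_length] at h2
  rw [h2]
  have h3 := sweep_return δ q0 (pass δ q0 l).2 (pass δ q0 l).2.length le_rfl
  rw [pass_length] at h3
  rw [pass_length, h3]
  exact sweep_turn_left δ q0 _

theorem sweep_cycles (δ : Q → Γ → Q × Γ) (q0 : Q) (l : List Γ) (k : ℕ) :
    ((sweeper δ q0).next)^[k * (2 * l.length + 2)] ⟨some q0, 0, tapeOf l⟩
      = ⟨some q0, 0, tapeOf (passes δ q0 k l)⟩ := by
  induction k with
  | zero => simp [passes]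
  | succ k ih =>
    have e : (k + 1) * (2 * l.length + 2) = (2 * l.length + 2) + k * (2 * l.length + 2) := by ring
    rw [e, Function.iterate_add_apply, ih]
    have h := sweep_cycle δ q0 (passes δ q0 k l)
    rw [passes_length] at h
    rw [h, passes]

/-- After `(s - 1)` full sweep cycles and one more sweep to the right, the machine is in the
state in which the `s`-th pass ends (here `s` is the length of the input). -/
theorem sweeper_state (δ : Q → Γ → Q × Γ) (q0 : Q) (l : List Γ) (k : ℕ) :
    (((sweeper δ q0).next)^[k * (2 * l.length + 2) + l.length] (initCfg (some q0) l)).state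
      = some (pass δ q0 (passes δ q0 k l)).1 := by
  have e : k * (2 * l.length + 2) + l.length = l.length + k * (2 * l.length + 2) := by ring
  rw [e, Function.iterate_add_apply, initCfg, sweep_cycles]
  have h := sweep_forward δ q0 (passes δ q0 k l) [] q0
  simp only [List.length_nil, List.nil_append, Nat.zero_add, Nat.cast_zero] at h
  rw [passes_length] at h
  rw [h]

end TMSim

end Vale.Agent.Lib.P312
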