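import Mathlib
import Vale.Agent.Lib.P312.Sweep
import Vale.Agent.Lib.P312.TMSim

/-!
Branching programs for the state of the sweeping one-tape machine.
-/

namespace Vale.Agent.Lib.P312

theorem sweeper_bp2 (Q Γ : Type) [Fintype Q] [Fintype Γ] (δ : Q → Γ → Q × Γ) (q0 : Q)
    (n1 n2 b : ℕ) (hn1 : 0 < n1) (hn2 : 0 < n2) (hb : 0 < b) :
    ∃ (S : Type) (_ : Fintype S) (init : S) (prog : List (Fin (n1 * b) × (Γ → S → S)))
      (out : S → Option Q),
      Fintype.card S ≤ (8 * b + 2) ^ (6 * b * (Fintype.card Q * Fintype.card Γ)) ∧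
      prog.length ≤ 2 * b * (56 * b + 14) ^ (n1 + n2) ∧
      ∀ x : Fin (n1 * b) → Γ,
        out (runBP prog x init)
          = (((sweeper δ q0).next)^[(n2 * b - 1) * (2 * (n1 * b) + 2) + n1 * b]
              (initCfg (some q0) (List.ofFn x))).state := by
  obtain ⟨S, hS, init, prog, out, h1, h2, h3⟩ := sweep_bp2 Q Γ δ q0 n1 n2 b hn1 hn2 hb
  refine ⟨S, hS, init, prog, fun st => some (out st), h1, h2, fun x => ?_⟩
  have h := sweeper_state δ q0 (List.ofFn x) (n2 * b - 1)
  rw [List.length_ofFn] at h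
  rw [h]
  exact congrArg some (h3 x)

theorem sweeper_bp (Q Γ : Type) [Fintype Q] [Fintype Γ] (δ : Q → Γ → Q × Γ) (q0 : Q)
    (n b : ℕ) (hn : 0 < n) (hb : 0 < b) :
    ∃ (S : Type) (_ : Fintype S) (init : S) (prog : List (Fin (n * b) × (Γ → S → S)))
      (out : S → Option Q),
      Fintype.card S ≤ (8 * b + 2) ^ (6 * b * (Fintype.card Q * Fintype.card Γ)) ∧
      prog.length ≤ 2 * b * (56 * b + 14) ^ (2 * n) ∧
      ∀ x : Fin (n * b) → Γ,
        out (runBP prog x init)
          = (((sweeper δ q0).next)^[(n * b - 1) * (2 * (n * b) + 2) + n * b]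
              (initCfg (some q0) (List.ofFn x))).state := by
  obtain ⟨S, hS, init, prog, out, h1, h2, h3⟩ := sweep_bp Q Γ δ q0 n b hn hb
  refine ⟨S, hS, init, prog, fun st => some (out st), h1, h2, fun x => ?_⟩
  have h := sweeper_state δ q0 (List.ofFn x) (n * b - 1)
  rw [List.length_ofFn] at h
  rw [h]
  exact congrArg some (h3 x)

theorem sweeper_bp_square (Q Γ : Type) [Fintype Q] [Fintype Γ] (δ : Q → Γ → Q × Γ) (q0 : Q)
    (b : ℕ) (hb : 0 < b) :
    ∃ (S : Type) (_ : Fintype S) (init : S) (prog : List (Fin (b * b) × (Γ → S → S)))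
      (out : S → Option Q),
      Fintype.card S * prog.length
        ≤ (56 * b + 14) ^ (b * (6 * (Fintype.card Q * Fintype.card Γ) + 2) + 1) ∧
      ∀ x : Fin (b * b) → Γ,
        out (runBP prog x init)
          = (((sweeper δ q0).next)^[2 * b ^ 4 + b ^ 2 - 2]
              (initCfg (some q0) (List.ofFn x))).state := by
  obtain ⟨S, hS, init, prog, out, h1, h2, h3⟩ := sweeper_bp Q Γ δ q0 b b hb hb
  refine ⟨S, hS, init, prog, out, ?_, fun x => ?_⟩
  · have e1 : (8 * b + 2) ^ (6 * b * (Fintype.card Q * Fintype.card Γ))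
        ≤ (56 * b + 14) ^ (6 * b * (Fintype.card Q * Fintype.card Γ)) :=
      Nat.pow_le_pow_left (by omega) _
    have e2 : 2 * b * (56 * b + 14) ^ (2 * b) ≤ (56 * b + 14) ^ (2 * b + 1) := by
      rw [pow_succ, mul_comm]
      exact Nat.mul_le_mul_left _ (by omega)
    calc Fintype.card S * prog.length
        ≤ (56 * b + 14) ^ (6 * b * (Fintype.card Q * Fintype.card Γ))
            * (56 * b + 14) ^ (2 * b + 1) :=
          Nat.mul_le_mul (le_trans h1 e1) (le_trans h2 e2)
      _ = (56 * b + 14) ^ (b * (6 * (Fintype.card Q * Fintype.card Γ) + 2) + 1) := by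
          rw [← pow_add]
          congr 1
          ring
  · rw [h3 x]
    congr 2
    have hb1 : 1 ≤ b * b := Nat.mul_pos hb hb
    obtain ⟨c, hc⟩ : ∃ c, b * b = c + 1 := ⟨b * b - 1, by omega⟩
    have e4 : b ^ 4 = (c + 1) * (c + 1) := by rw [← hc]; ring
    have e2 : b ^ 2 = c + 1 := by rw [← hc]; ring
    rw [hc, e4, e2, Nat.add_sub_cancel]
    have e5 : 2 * ((c + 1) * (c + 1)) + (c + 1) = c * (2 * (c + 1) + 2) + (c + 1) + 2 := by ring
    rw [e5, Nat.add_sub_cancel]

end Vale.Agent.Lib.P312
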